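import Vale.Agent.P174.Main

namespace Vale.Agent.Results.P174.Howie

universe u

/-- Howie's conjecture: every nonsingular finite system of equations over any group `G` is
solvable over `G`. -/
theorem result (G : Type u) [Group G] (m n : ℕ) (w : Fin m → Monoid.Coprod G (FreeGroup (Fin n)))
    (hw : (Matrix.of fun (i : Fin m) (j : Fin n) =>
      ((Multiplicative.toAdd (Monoid.Coprod.lift (1 : G →* Multiplicative (Fin n → ℤ))
        (FreeGroup.lift fun k => Multiplicative.ofAdd (Pi.single k 1)) (w i)) j : ℤ) : ℚ)).rank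
          = m) :
    Function.Injective ((QuotientGroup.mk' (Subgroup.normalClosure (Set.range w))).comp
      (Monoid.Coprod.inl : G →* Monoid.Coprod G (FreeGroup (Fin n)))) ∧
    ∃ (H : Type u) (_ : Group H) (φ : G →* H) (h : Fin n → H), Function.Injective φ ∧
      ∀ i, Monoid.Coprod.lift φ (FreeGroup.lift h) (w i) = 1 := by
  have h1 : Function.Injective ((QuotientGroup.mk' (Subgroup.normalClosure (Set.range w))).comp
      (Monoid.Coprod.inl : G →* Monoid.Coprod G (FreeGroup (Fin n)))) :=
    (injective_iff_map_eq_one _).mpr fun g hg =>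
      Vale.Agent.P174.howie w hw ((QuotientGroup.eq_one_iff _).mp hg)
  refine ⟨h1, _, inferInstance, _, fun k => QuotientGroup.mk' _
    (Monoid.Coprod.inr (FreeGroup.of k)), h1, fun i => ?_⟩
  have h2 : Monoid.Coprod.lift ((QuotientGroup.mk' (Subgroup.normalClosure (Set.range w))).comp
      Monoid.Coprod.inl) (FreeGroup.lift fun k => QuotientGroup.mk' _
        (Monoid.Coprod.inr (FreeGroup.of k))) = QuotientGroup.mk' _ := by
    ext <;> simp
  rw [h2]
  exact (QuotientGroup.eq_one_iff _).mpr (Subgroup.subset_normalClosure ⟨i, rfl⟩)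

end Vale.Agent.Results.P174.Howie
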